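import Vale.Agent.P090.BMain

namespace Vale.Agent.Results.P090.A0_BAPFails

open Vale.Agent.P090

/-- There is a countable uniformly discrete metric space (all nonzero distances are at least `1`)
whose Lipschitz-free space fails the `lam`-bounded approximation property for every real `lam`,
that is, fails the bounded approximation property. -/
theorem result :
    ∃ (M : Type) (_ : MetricSpace M) (o : M), Countable M ∧
      (∀ x y : M, x ≠ y → 1 ≤ dist x y) ∧ ∀ lam : ℝ, ¬ HasBAP lam (LipFree M o) :=
  main_BAP

end Vale.Agent.Results.P090.A0_BAPFails
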