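import Vale.Agent.P090.Main

namespace Vale.Agent.Results.P090.A1_MAPFails

open Vale.Agent.P090

/-- There is a countable metric space all of whose nonzero distances are `1` or `2` (hence
uniformly discrete and bounded) whose Lipschitz-free space fails the `lam`-bounded approximation
property for every `lam ≤ 1 + 10^(-6)`; in particular it fails the metric approximation
property. -/
theorem result :
    ∃ (M : Type) (_ : MetricSpace M) (o : M), Countable M ∧
      (∀ x y : M, x ≠ y → dist x y = 1 ∨ dist x y = 2) ∧
      ∀ lam : ℝ, lam ≤ 1 + 1 / 10 ^ 6 → ¬ HasBAP lam (LipFree M o) :=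
  main_theorem

end Vale.Agent.Results.P090.A1_MAPFails
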