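import Vale.Agent.Results.P090.A0_BAPFails

namespace Vale.Agent.Results.P090.A2_NotEveryBAP

open Vale.Agent.P090

/-- It is false that the Lipschitz-free space of every uniformly discrete pointed metric space has
the `lam`-bounded approximation property for some real `lam`. -/
theorem result :
    ¬ ∀ (M : Type) [MetricSpace M] (o : M),
        (∃ θ : ℝ, 0 < θ ∧ ∀ x y : M, x ≠ y → θ ≤ dist x y) →
          ∃ lam : ℝ, HasBAP lam (LipFree M o) := by
  intro h
  obtain ⟨M, inst, o, -, hd, hb⟩ := Vale.Agent.Results.P090.A0_BAPFails.result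
  obtain ⟨lam, hl⟩ := @h M inst o ⟨1, one_pos, hd⟩
  exact hb lam hl

end Vale.Agent.Results.P090.A2_NotEveryBAP
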