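import Vale.Agent.Results.P090.A0_BAPFails
import Vale.Agent.Results.P090.A1_MAPFails

namespace Vale.Agent.Results.P090.A3_Combined

open Vale.Agent.P090

/-- (1) There is a countable uniformly discrete metric space whose Lipschitz-free space fails the
bounded approximation property. (2) There is a countable metric space with all nonzero distances
equal to 1 or 2 whose Lipschitz-free space fails the metric approximation property, and even the
`lam`-bounded approximation property for all `lam ≤ 1 + 10⁻⁶`. -/
theorem result :
    (∃ (M : Type) (_ : MetricSpace M) (o : M), Countable M ∧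
      (∀ x y : M, x ≠ y → 1 ≤ dist x y) ∧ ∀ lam : ℝ, ¬ HasBAP lam (LipFree M o)) ∧
    (∃ (M : Type) (_ : MetricSpace M) (o : M), Countable M ∧
      (∀ x y : M, x ≠ y → dist x y = 1 ∨ dist x y = 2) ∧
      ∀ lam : ℝ, lam ≤ 1 + 1 / 10 ^ 6 → ¬ HasBAP lam (LipFree M o)) :=
  ⟨Vale.Agent.Results.P090.A0_BAPFails.result, Vale.Agent.Results.P090.A1_MAPFails.result⟩

end Vale.Agent.Results.P090.A3_Combined
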